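import Crest.Statements.S0170
import Crest.Agent.Lib.BF.Scale

set_option autoImplicit false
open scoped ContDiff
open Crest.AnalysisR.BoxFlow
open Crest Crest.AnalysisR

namespace Crest.Agent.S0170

open Crest.Agent.Lib.BF

/-- Finitely many pairwise disjoint rational boxes in 3-space are carried onto disjoint target boxes, each a translated determinant-one positive diagonal rescaling of its source, by the time-one flow of a smooth, compactly supported, effective, divergence-free velocity field active only in [1/4,3/4]. The flow equals the prescribed affine map on a neighbourhood of each source box. Effective: computably approximable mixed derivatives at rational points and computable global derivative bounds. -/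
theorem result
    (n : ℕ) (a b h k : Fin n → Fin 3 → ℚ)
    (hh : ∀ i j, 0 < h i j) (hk : ∀ i j, 0 < k i j)
    (ha : Pairwise fun i i' => Disjoint (box (a i) (h i)) (box (a i') (h i')))
    (hb : Pairwise fun i i' => Disjoint (box (b i) (k i)) (box (b i') (k i')))
    (hvol : ∀ i, ∏ j : Fin 3, k i j / h i j = 1) :
    ∃ (U : Field) (Φ : ℝ → (Fin 3 → ℝ) → (Fin 3 → ℝ)),
      ContDiff ℝ ∞ U ∧ HasCompactSupport U ∧ Effective U ∧
      (∀ p : ℝ × (Fin 3 → ℝ), p.1 ∉ Set.Icc (1 / 4 : ℝ) (3 / 4) → U p = 0) ∧
      (∀ p : ℝ × (Fin 3 → ℝ), spaceDiv U p = 0) ∧ IsFlow U Φ ∧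
      ∀ i : Fin n, ∃ O : Set (Fin 3 → ℝ), IsOpen O ∧ box (a i) (h i) ⊆ O ∧
        ∀ x ∈ O, Φ 1 x = fun j => (b i j : ℝ) + ((k i j / h i j : ℚ) : ℝ) * (x j - (a i j : ℝ)) := by
  -- the bounds
  obtain ⟨T0, hT0⟩ := Finite.exists_le
    (fun i : Fin n => ∑ j, (|a i j + h i j| + |b i j + k i j|))
  have hT : ∀ i j, a i j + h i j < T0 + 1 ∧ b i j + k i j < T0 + 1 := by
    intro i j
    have h1 := Finset.single_le_sum (f := fun j => |a i j + h i j| + |b i j + k i j|)
      (fun _ _ => by positivity) (Finset.mem_univ j)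
    have h2 := hT0 i
    have h3 := le_abs_self (a i j + h i j)
    have h4 := le_abs_self (b i j + k i j)
    have h5 := abs_nonneg (a i j + h i j)
    have h6 := abs_nonneg (b i j + k i j)
    constructor <;> linarith
  obtain ⟨R0, hR0⟩ := Finite.exists_le
    (fun i : Fin n => max (sizeOf (fun j => k i j / h i j) (h i)) (∑ j, k i j))
  have hsz : ∀ i, sizeOf (fun j => k i j / h i j) (h i) ≤ R0 := fun i =>
    (le_max_left _ _).trans (hR0 i)
  have hkR : ∀ i j, k i j ≤ R0 := fun i j =>
    ((Finset.single_le_sum (f := k i) (fun j _ => (hk i j).le) (Finset.mem_univ j)).trans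
      (le_max_right _ _)).trans (hR0 i)
  have hhR : ∀ i j, h i j ≤ R0 := fun i j => by
    have h1 : h i j ≤ ∑ j, h i j :=
      Finset.single_le_sum (f := h i) (fun j _ => (hh i j).le) (Finset.mem_univ j)
    have h2 : ∑ j, h i j ≤ sizeOf (fun j => k i j / h i j) (h i) :=
      le_growth _ _ (Finset.sum_nonneg fun j _ => (hh i j).le)
    exact h1.trans (h2.trans (hsz i))
  set T : ℚ := T0 + 1 with hTdef
  -- parking centres
  have hR0pos : ∀ i : Fin n, 0 ≤ R0 := fun i => ((hh i 0).le).trans (hhR i 0)
  set Y : ℚ := T + R0 + 1 with hY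
  set X : Fin n → ℚ := fun i => T + R0 + 1 + ((i : ℕ) : ℚ) * (2 * R0 + 3) with hX
  have hXsep : ∀ i i' : Fin n, i < i' → X i + (2 * R0 + 3) ≤ X i' := by
    intro i i' hlt
    have h0 := hR0pos i
    have h1 : ((i : ℕ) : ℚ) + 1 ≤ ((i' : ℕ) : ℚ) := by exact_mod_cast hlt
    simp only [hX]
    nlinarith
  have hXT : ∀ i, T + R0 + 1 ≤ X i := by
    intro i
    have h0 := hR0pos i
    simp only [hX]
    have : (0 : ℚ) ≤ ((i : ℕ) : ℚ) * (2 * R0 + 3) := by positivity
    linarith
  have hXw : ∀ w : Fin n → Fin 3 → ℚ, (∀ i j, w i j ≤ R0) → (∀ i j, 0 < w i j) →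
      ∀ i i', i ≠ i' → X i + w i 0 < X i' - w i' 0 ∨ X i' + w i' 0 < X i - w i 0 := by
    intro w hw _ i i' hne
    rcases lt_or_gt_of_ne hne with hlt | hlt
    · left
      have := hXsep i i' hlt
      have := hw i 0
      have := hw i' 0
      linarith
    · right
      have := hXsep i' i hlt
      have := hw i 0
      have := hw i' 0
      linarith
  -- the first stage: from the boxes `(a, h)` to the parking positions
  have hchain1 : TChain h a (park X Y) := by
    refine peel_all (T := T) (fun i j => (hh i j).le) ?_ (fun i j => (hT i j).1) ?_ ?_ (hXw h hhR hh)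
    · intro i i' hne
      exact exists_sep_of_disjoint (hh i) (hh i') (ha hne)
    · intro i
      have := hXT i
      have := hhR i 0
      linarith
    · intro i
      have := hhR i 1
      rw [hY]
      linarith
  have hchain3 : TChain k b (park X Y) := by
    refine peel_all (T := T) (fun i j => (hk i j).le) ?_ (fun i j => (hT i j).2) ?_ ?_ (hXw k hkR hk)
    · intro i i' hne
      exact exists_sep_of_disjoint (hk i) (hk i') (hb hne)
    · intro i
      have := hXT i
      have := hkR i 0
      linarith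
    · intro i
      have := hkR i 1
      rw [hY]
      linarith
  obtain ⟨L1, A1, hr1, hA1⟩ := hchain1.reach
  obtain ⟨L3, A3, hr3, hA3⟩ := hchain3.symm.reach
  -- the second stage
  obtain ⟨L2, A2, hr2, hA2⟩ := scale_stage (park X Y) h k R0 hh hk hvol hhR hkR hsz (by
    intro i i' hne x hx hCB
    have h1 := mem_box_bounds hx 0
    have h2 := hCB 0
    simp only at h1 h2
    have hp : ∀ i : Fin n, park X Y i 0 = X i := fun _ => rfl
    rw [hp] at h1 h2
    push_cast at h2
    rcases lt_or_gt_of_ne hne with hlt | hlt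
    · have h3 := hXsep i i' hlt
      have h4 : (X i : ℝ) + (2 * R0 + 3) ≤ X i' := by exact_mod_cast h3
      linarith [h1.1, h2.2]
    · have h3 := hXsep i' i hlt
      have h4 : (X i' : ℝ) + (2 * R0 + 3) ≤ X i := by exact_mod_cast h3
      linarith [h1.2, h2.1])
  obtain ⟨U, Φ, h1, h2, h3, h4, h5, h6, h7⟩ := ((hr1.append hr2).append hr3).flow
  refine ⟨U, Φ, h1, h2, h3, h4, h5, h6, fun i => ?_⟩
  obtain ⟨O, hO, hKO, hΦ⟩ := h7 i
  refine ⟨O, hO, hKO, fun x hx => ?_⟩
  rw [hΦ x hx]
  simp only [Function.comp, hA1, hA2, hA3]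
  funext j
  push_cast
  ring

end Crest.Agent.S0170
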